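/-
Generic spread lemma (Frankston-Kahn-Narayanan-Park, Park-Pham style minimum fragments), for
independent coins on a finite set.

Blueprint.  X finite, weights wt q W = prod over x of (q if x in W else 1-q).
Family: Om a finset of indices, F : index -> Finset X, |F w| <= L, and the spread condition
#{w in Om | I subset F w} <= N * sigma^|I| for every I.
Round: for a coin set W and w in Om, take a candidate w' in Om with F w' subset W union F w
minimising |F w' \ W|, T(W,w) = F w' \ W.  Then T(W,w) subset F w and, for Z = W union T,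
any member of the family inside Z has the same fragment T; hence T is a subset of the fixed
member G Z inside Z, so (W,w) -> (Z,T,w) is injective into triples with T subset G Z,
T subset F w, giving  q^t * sum_W wt q W * #{w | |T(W,w)| = t} <= C(L,t) * N * sigma^t.
Keep the w with |T| <= L/2, and recurse with F' = T(W,.), L' = L/2 and new independent coins.
Union of independent coins of densities q, r has density q + r - q r.
-/
import Mathlib
import Crest.Prelude.Def_FinProb

set_option autoImplicit false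

namespace Crest.Agent.SpreadLemma

open Finset

section Weights

variable {X : Type*} [DecidableEq X]

/-- Weight of `W` as a subset of the finite universe `A`. -/
noncomputable def wtOn (A : Finset X) (q : ℝ) (W : Finset X) : ℝ :=
  ∏ x ∈ A, if x ∈ W then q else 1 - q

lemma wtOn_insert_of_subset {A : Finset X} {a : X} (ha : a ∉ A) (q : ℝ) {V : Finset X}
    (hV : V ⊆ A) : wtOn (insert a A) q V = (1 - q) * wtOn A q V := by
  unfold wtOn
  rw [Finset.prod_insert ha, if_neg (fun h => ha (hV h))]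

lemma wtOn_insert_insert {A : Finset X} {a : X} (ha : a ∉ A) (q : ℝ) (V : Finset X) :
    wtOn (insert a A) q (insert a V) = q * wtOn A q V := by
  unfold wtOn
  rw [Finset.prod_insert ha, if_pos (Finset.mem_insert_self a V)]
  congr 1
  refine Finset.prod_congr rfl fun x hx => ?_
  have : x ≠ a := fun h => ha (h ▸ hx)
  simp [Finset.mem_insert, this]

/-- Independent coins: the union of two independent random subsets of `A`. -/
lemma sum_union_on (A : Finset X) (q r : ℝ) (g : Finset X → ℝ) :
    ∑ W ∈ A.powerset, ∑ V ∈ A.powerset, wtOn A q W * wtOn A r V * g (W ∪ V)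
      = ∑ Z ∈ A.powerset, wtOn A (q + r - q * r) Z * g Z := by
  induction A using Finset.induction_on generalizing g with
  | empty => simp [wtOn]
  | insert a A ha ih =>
    have h1 : ∀ W ∈ A.powerset, ∀ V ∈ A.powerset,
        wtOn (insert a A) q W * wtOn (insert a A) r V * g (W ∪ V)
          = (1 - q) * (1 - r) * (wtOn A q W * wtOn A r V * g (W ∪ V)) := by
      intro W hW V hV
      rw [wtOn_insert_of_subset ha q (mem_powerset.1 hW),
        wtOn_insert_of_subset ha r (mem_powerset.1 hV)]
      ring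
    have h2 : ∀ W ∈ A.powerset, ∀ V ∈ A.powerset,
        wtOn (insert a A) q W * wtOn (insert a A) r (insert a V) * g (W ∪ insert a V)
          = (1 - q) * r * (wtOn A q W * wtOn A r V * g (insert a (W ∪ V))) := by
      intro W hW V hV
      rw [wtOn_insert_of_subset ha q (mem_powerset.1 hW), wtOn_insert_insert ha r,
        Finset.union_insert]
      ring
    have h3 : ∀ W ∈ A.powerset, ∀ V ∈ A.powerset,
        wtOn (insert a A) q (insert a W) * wtOn (insert a A) r V * g (insert a W ∪ V)
          = q * (1 - r) * (wtOn A q W * wtOn A r V * g (insert a (W ∪ V))) := by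
      intro W hW V hV
      rw [wtOn_insert_insert ha q, wtOn_insert_of_subset ha r (mem_powerset.1 hV),
        Finset.insert_union]
      ring
    have h4 : ∀ W ∈ A.powerset, ∀ V ∈ A.powerset,
        wtOn (insert a A) q (insert a W) * wtOn (insert a A) r (insert a V)
            * g (insert a W ∪ insert a V)
          = q * r * (wtOn A q W * wtOn A r V * g (insert a (W ∪ V))) := by
      intro W hW V hV
      rw [wtOn_insert_insert ha q, wtOn_insert_insert ha r, Finset.insert_union,
        Finset.union_insert, Finset.insert_idem]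
      ring
    have key1 := ih g
    have key2 := ih (fun Z => g (insert a Z))
    simp only [Finset.sum_powerset_insert ha]
    rw [Finset.sum_add_distrib]
    simp only [Finset.sum_add_distrib]
    rw [Finset.sum_congr rfl fun W hW => Finset.sum_congr rfl fun V hV => h1 W hW V hV,
      Finset.sum_congr rfl fun W hW => Finset.sum_congr rfl fun V hV => h2 W hW V hV,
      Finset.sum_congr rfl fun W hW => Finset.sum_congr rfl fun V hV => h3 W hW V hV,
      Finset.sum_congr rfl fun W hW => Finset.sum_congr rfl fun V hV => h4 W hW V hV]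
    simp only [← Finset.mul_sum]
    rw [key1, key2]
    have e1 : ∀ Z ∈ A.powerset, wtOn (insert a A) (q + r - q * r) Z * g Z
        = (1 - q) * (1 - r) * (wtOn A (q + r - q * r) Z * g Z) := by
      intro Z hZ
      rw [wtOn_insert_of_subset ha _ (mem_powerset.1 hZ)]
      ring
    have e2 : ∀ Z ∈ A.powerset, wtOn (insert a A) (q + r - q * r) (insert a Z) * g (insert a Z)
        = (q + r - q * r) * (wtOn A (q + r - q * r) Z * g (insert a Z)) := by
      intro Z hZ
      rw [wtOn_insert_insert ha]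
      ring
    rw [Finset.sum_congr rfl e1, Finset.sum_congr rfl e2]
    simp only [← Finset.mul_sum]
    ring

end Weights

section Main

variable {X : Type*} [Fintype X] [DecidableEq X]
set_option linter.unusedSectionVars false

lemma wtOn_univ_eq_pow (q : ℝ) (W : Finset X) :
    wtOn univ q W = q ^ W.card * (1 - q) ^ (Fintype.card X - W.card) := by
  unfold wtOn
  rw [Finset.prod_ite, Finset.prod_const, Finset.prod_const]
  congr 2
  · congr 1
    ext x; simp
  · have : (univ.filter fun x => x ∉ W) = Wᶜ := by ext x; simp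
    rw [this, Finset.card_compl]

lemma wtOn_univ_nonneg {q : ℝ} (h0 : 0 ≤ q) (h1 : q ≤ 1) (W : Finset X) : 0 ≤ wtOn univ q W :=
  Finset.prod_nonneg fun x _ => by split_ifs <;> linarith

lemma sum_wtOn_univ (q : ℝ) : ∑ W : Finset X, wtOn univ q W = 1 := by
  simp_rw [wtOn_univ_eq_pow]
  rw [Fintype.sum_pow_mul_eq_add_pow]
  simp

lemma sum_union_univ (q r : ℝ) (g : Finset X → ℝ) :
    ∑ W : Finset X, ∑ V : Finset X, wtOn univ q W * wtOn univ r V * g (W ∪ V)
      = ∑ Z : Finset X, wtOn univ (q + r - q * r) Z * g Z := by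
  have := sum_union_on (univ : Finset X) q r g
  simpa [Finset.powerset_univ] using this

/-- Adding a disjoint `T` of size `t` to `W` and paying `q ^ t`. -/
lemma pow_mul_wt_le {q : ℝ} (h0 : 0 ≤ q) (h1 : q ≤ 1) {W T : Finset X} (hd : Disjoint T W) :
    q ^ T.card * wtOn univ q W ≤ wtOn univ q (W ∪ T) := by
  rw [wtOn_univ_eq_pow, wtOn_univ_eq_pow, Finset.card_union_of_disjoint hd.symm]
  have hle : W.card + T.card ≤ Fintype.card X := by
    rw [← Finset.card_union_of_disjoint hd.symm]
    exact Finset.card_le_univ _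
  have e : Fintype.card X - W.card = (Fintype.card X - (W.card + T.card)) + T.card := by omega
  rw [e, pow_add (1 - q), pow_add q]
  have h2 : (1 - q) ^ T.card ≤ 1 := pow_le_one₀ (by linarith) (by linarith)
  have h3 : 0 ≤ q ^ W.card * q ^ T.card * (1 - q) ^ (Fintype.card X - (W.card + T.card)) := by
    have : 0 ≤ 1 - q := by linarith
    positivity
  nlinarith [mul_le_of_le_one_right h3 h2]

variable {ι : Type*}

lemma exists_fragment (Ω : Finset ι) (F : ι → Finset X) (W : Finset X) (ω : ι) (hω : ω ∈ Ω) :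
    ∃ T : Finset X, T ⊆ F ω ∧ Disjoint T W ∧ (∃ ω' ∈ Ω, F ω' ⊆ W ∪ T ∧ F ω' \ W = T) ∧
      ∀ ω'' ∈ Ω, F ω'' ⊆ W ∪ F ω → T.card ≤ (F ω'' \ W).card := by
  classical
  have hne : (Ω.filter fun ω'' => F ω'' ⊆ W ∪ F ω).Nonempty :=
    ⟨ω, mem_filter.2 ⟨hω, Finset.subset_union_right⟩⟩
  obtain ⟨ω', hω', hmin⟩ :=
    Finset.exists_min_image (Ω.filter fun ω'' => F ω'' ⊆ W ∪ F ω) (fun ω'' => (F ω'' \ W).card) hne
  obtain ⟨hω'Ω, hω'sub⟩ := mem_filter.1 hω'
  refine ⟨F ω' \ W, ?_, Finset.sdiff_disjoint, ⟨ω', hω'Ω, ?_, rfl⟩, ?_⟩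
  · intro x hx
    obtain ⟨hx1, hx2⟩ := Finset.mem_sdiff.1 hx
    rcases Finset.mem_union.1 (hω'sub hx1) with h | h
    · exact absurd h hx2
    · exact h
  · intro x hx
    by_cases h : x ∈ W
    · exact Finset.mem_union_left _ h
    · exact Finset.mem_union_right _ (Finset.mem_sdiff.2 ⟨hx, h⟩)
  · intro ω'' hω'' hsub
    exact hmin ω'' (mem_filter.2 ⟨hω'', hsub⟩)

/-- The fragment property, as used below. -/
def IsFragmentMap (Ω : Finset ι) (F : ι → Finset X) (T : Finset X → ι → Finset X) : Prop :=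
  ∀ W, ∀ ω ∈ Ω, T W ω ⊆ F ω ∧ Disjoint (T W ω) W ∧ (∃ ω' ∈ Ω, F ω' ⊆ W ∪ T W ω ∧ F ω' \ W = T W ω) ∧
    ∀ ω'' ∈ Ω, F ω'' ⊆ W ∪ F ω → (T W ω).card ≤ (F ω'' \ W).card

lemma exists_fragmentMap (Ω : Finset ι) (F : ι → Finset X) :
    ∃ T : Finset X → ι → Finset X, IsFragmentMap Ω F T := by
  choose! T hT using fun W ω (h : ω ∈ Ω) => exists_fragment Ω F W ω h
  exact ⟨T, hT⟩

open Classical in
/-- A fixed member of the family inside `Z`, if any. -/
noncomputable def chosenMember (Ω : Finset ι) (F : ι → Finset X) (Z : Finset X) : Finset X :=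
  if h : ∃ ω ∈ Ω, F ω ⊆ Z then F (Classical.choose h) else ∅

lemma chosenMember_spec (Ω : Finset ι) (F : ι → Finset X) (Z : Finset X)
    (h : ∃ ω ∈ Ω, F ω ⊆ Z) :
    ∃ ω ∈ Ω, F ω ⊆ Z ∧ chosenMember Ω F Z = F ω := by
  classical
  refine ⟨Classical.choose h, (Classical.choose_spec h).1, (Classical.choose_spec h).2, ?_⟩
  unfold chosenMember
  rw [dif_pos h]

lemma chosenMember_card_le (Ω : Finset ι) (F : ι → Finset X) {L : ℕ}
    (hL : ∀ ω ∈ Ω, (F ω).card ≤ L) (Z : Finset X) : (chosenMember Ω F Z).card ≤ L := by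
  classical
  by_cases h : ∃ ω ∈ Ω, F ω ⊆ Z
  · obtain ⟨ω, hω, -, e⟩ := chosenMember_spec Ω F Z h
    rw [e]; exact hL ω hω
  · unfold chosenMember
    rw [dif_neg h]; simp

/-- The key point of the fragment method: the fragment is a subset of the chosen member
of the family inside `W ∪ T`. -/
lemma fragment_subset_chosen {Ω : Finset ι} {F : ι → Finset X} {T : Finset X → ι → Finset X}
    (hT : IsFragmentMap Ω F T) (W : Finset X) {ω : ι} (hω : ω ∈ Ω) :
    T W ω ⊆ chosenMember Ω F (W ∪ T W ω) := by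
  obtain ⟨hsub, hdisj, ⟨ω', hω', hω'sub, -⟩, hmin⟩ := hT W ω hω
  obtain ⟨ω₁, hω₁, hω₁sub, e⟩ := chosenMember_spec Ω F (W ∪ T W ω) ⟨ω', hω', hω'sub⟩
  rw [e]
  have h1 : F ω₁ \ W ⊆ T W ω := by
    intro x hx
    obtain ⟨hx1, hx2⟩ := Finset.mem_sdiff.1 hx
    rcases Finset.mem_union.1 (hω₁sub hx1) with h | h
    · exact absurd h hx2
    · exact h
  have h2 : F ω₁ ⊆ W ∪ F ω := hω₁sub.trans (Finset.union_subset_union_right hsub)
  have h3 := hmin ω₁ hω₁ h2
  have h4 : F ω₁ \ W = T W ω := Finset.eq_of_subset_of_card_le h1 h3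
  rw [← h4]
  exact Finset.sdiff_subset

/-- The fragment count. -/
lemma fragment_count (Ω : Finset ι) (F : ι → Finset X) (L : ℕ) (hL : ∀ ω ∈ Ω, (F ω).card ≤ L)
    (N σ q : ℝ) (hN : 0 ≤ N) (hσ : 0 ≤ σ) (hq0 : 0 ≤ q) (hq1 : q ≤ 1)
    (hs : ∀ I : Finset X, ((Ω.filter fun ω => I ⊆ F ω).card : ℝ) ≤ N * σ ^ I.card)
    (T : Finset X → ι → Finset X) (hT : IsFragmentMap Ω F T) (t : ℕ) :
    q ^ t * ∑ W : Finset X, wtOn univ q W * ((Ω.filter fun ω => (T W ω).card = t).card : ℝ)
      ≤ (L.choose t : ℝ) * (N * σ ^ t) := by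
  classical
  -- first step: pay `q ^ t`
  have step1 : q ^ t * ∑ W : Finset X, wtOn univ q W * ((Ω.filter fun ω => (T W ω).card = t).card : ℝ)
      ≤ ∑ W : Finset X, ∑ ω ∈ Ω.filter (fun ω => (T W ω).card = t), wtOn univ q (W ∪ T W ω) := by
    rw [Finset.mul_sum]
    refine Finset.sum_le_sum fun W _ => ?_
    have : ((Ω.filter fun ω => (T W ω).card = t).card : ℝ) =
        ∑ _ω ∈ Ω.filter (fun ω => (T W ω).card = t), (1 : ℝ) := by simp
    rw [this, Finset.mul_sum, Finset.mul_sum]
    refine Finset.sum_le_sum fun ω hω => ?_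
    obtain ⟨hω1, hω2⟩ := mem_filter.1 hω
    have := pow_mul_wt_le (W := W) hq0 hq1 (hT W ω hω1).2.1
    rw [hω2] at this
    linarith
  -- second step: injectivity
  let A : Finset (Σ _ : Finset X, ι) :=
    (univ : Finset (Finset X)).sigma fun W => Ω.filter fun ω => (T W ω).card = t
  let φ : (Σ _ : Finset X, ι) → (Σ _ : Finset X, Σ _ : Finset X, ι) :=
    fun a => ⟨a.1 ∪ T a.1 a.2, ⟨T a.1 a.2, a.2⟩⟩
  let B : Finset (Σ _ : Finset X, Σ _ : Finset X, ι) :=
    (univ : Finset (Finset X)).sigma fun Z =>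
      (powersetCard t (chosenMember Ω F Z)).sigma fun S => Ω.filter fun ω => S ⊆ F ω
  have hφinj : Set.InjOn φ (A : Set (Σ _ : Finset X, ι)) := by
    rintro ⟨W₁, ω₁⟩ h₁ ⟨W₂, ω₂⟩ h₂ h
    have h₁' := (mem_filter.1 (mem_sigma.1 (Finset.mem_coe.1 h₁)).2).1
    have h₂' := (mem_filter.1 (mem_sigma.1 (Finset.mem_coe.1 h₂)).2).1
    simp only [φ, Sigma.mk.inj_iff, heq_eq_eq] at h
    obtain ⟨h1, h2, h3⟩ := h
    subst h3
    have d1 := (hT W₁ ω₁ h₁').2.1
    have d2 := (hT W₂ ω₁ h₂').2.1
    have e1 : W₁ = (W₁ ∪ T W₁ ω₁) \ T W₁ ω₁ := by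
      rw [Finset.union_sdiff_right]; exact (Disjoint.sdiff_eq_left d1.symm).symm
    have e2 : W₂ = (W₂ ∪ T W₂ ω₁) \ T W₂ ω₁ := by
      rw [Finset.union_sdiff_right]; exact (Disjoint.sdiff_eq_left d2.symm).symm
    have : W₁ = W₂ := by rw [e1, e2, h1, h2]
    subst this
    rfl
  have hφmaps : A.image φ ⊆ B := by
    intro b hb
    obtain ⟨⟨W, ω⟩, ha, rfl⟩ := Finset.mem_image.1 hb
    obtain ⟨hω1, hω2⟩ := mem_filter.1 (mem_sigma.1 ha).2
    refine mem_sigma.2 ⟨mem_univ _, mem_sigma.2 ⟨?_, mem_filter.2 ⟨hω1, (hT W ω hω1).1⟩⟩⟩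
    exact mem_powersetCard.2 ⟨fragment_subset_chosen hT W hω1, hω2⟩
  have step2 : ∑ W : Finset X, ∑ ω ∈ Ω.filter (fun ω => (T W ω).card = t), wtOn univ q (W ∪ T W ω)
      ≤ ∑ b ∈ B, wtOn univ q b.1 := by
    rw [Finset.sum_sigma']
    have e : ∑ a ∈ A, wtOn univ q (a.1 ∪ T a.1 a.2) = ∑ b ∈ A.image φ, wtOn univ q b.1 := by
      rw [Finset.sum_image hφinj]
    calc _ = ∑ b ∈ A.image φ, wtOn univ q b.1 := e
      _ ≤ _ := Finset.sum_le_sum_of_subset_of_nonneg hφmaps
          (fun b _ _ => wtOn_univ_nonneg hq0 hq1 _)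
  -- third step: compute over `B`
  have step3 : ∑ b ∈ B, wtOn univ q b.1 ≤ (L.choose t : ℝ) * (N * σ ^ t) := by
    simp only [B, Finset.sum_sigma]
    have inner : ∀ Z : Finset X,
        ∑ S ∈ powersetCard t (chosenMember Ω F Z), ∑ _ω ∈ Ω.filter (fun ω => S ⊆ F ω), wtOn univ q Z
          ≤ wtOn univ q Z * ((L.choose t : ℝ) * (N * σ ^ t)) := by
      intro Z
      have hw := wtOn_univ_nonneg hq0 hq1 Z
      have h1 : ∀ S ∈ powersetCard t (chosenMember Ω F Z),
          ∑ _ω ∈ Ω.filter (fun ω => S ⊆ F ω), wtOn univ q Z ≤ wtOn univ q Z * (N * σ ^ t) := by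
        intro S hS
        have hcard := (mem_powersetCard.1 hS).2
        rw [Finset.sum_const, nsmul_eq_mul, mul_comm]
        refine mul_le_mul_of_nonneg_left ?_ hw
        have := hs S
        rwa [hcard] at this
      refine (Finset.sum_le_sum h1).trans ?_
      rw [Finset.sum_const, nsmul_eq_mul, card_powersetCard]
      have hcm := chosenMember_card_le Ω F hL Z
      have hch : (((chosenMember Ω F Z).card.choose t : ℕ) : ℝ) ≤ (L.choose t : ℝ) := by
        exact_mod_cast Nat.choose_le_choose t hcm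
      have hnn : 0 ≤ wtOn univ q Z * (N * σ ^ t) := by positivity
      nlinarith [mul_le_mul_of_nonneg_right hch hnn]
    refine (Finset.sum_le_sum fun Z _ => inner Z).trans ?_
    rw [← Finset.sum_mul, sum_wtOn_univ, one_mul]
  exact step1.trans (step2.trans step3)

/-- Total weight of the pairs with a large fragment. -/
lemma bad_sum (Ω : Finset ι) (F : ι → Finset X) (L : ℕ) (hL : ∀ ω ∈ Ω, (F ω).card ≤ L)
    (N σ q : ℝ) (hN : 0 ≤ N) (hσ : 0 ≤ σ) (hq0 : 0 < q) (hq1 : q ≤ 1) (h64 : 64 * σ ≤ q)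
    (hs : ∀ I : Finset X, ((Ω.filter fun ω => I ⊆ F ω).card : ℝ) ≤ N * σ ^ I.card)
    (T : Finset X → ι → Finset X) (hT : IsFragmentMap Ω F T) :
    ∑ W : Finset X, wtOn univ q W * ((Ω.filter fun ω => L / 2 < (T W ω).card).card : ℝ)
      ≤ N * ((1 / 8) * (1 / 4) ^ L) := by
  classical
  -- each level
  have level : ∀ t : ℕ,
      ∑ W : Finset X, wtOn univ q W * ((Ω.filter fun ω => (T W ω).card = t).card : ℝ)
        ≤ (L.choose t : ℝ) * N * (1 / 64) ^ t := by
    intro t
    have h := fragment_count Ω F L hL N σ q hN hσ hq0.le hq1 hs T hT t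
    have hqt : 0 < q ^ t := pow_pos hq0 t
    have hσt : σ ^ t ≤ q ^ t * (1 / 64) ^ t := by
      rw [← mul_pow]
      exact pow_le_pow_left₀ hσ (by linarith) t
    have hchoose : (0 : ℝ) ≤ (L.choose t : ℝ) * N := by positivity
    have : q ^ t * ∑ W : Finset X, wtOn univ q W * ((Ω.filter fun ω => (T W ω).card = t).card : ℝ)
        ≤ q ^ t * ((L.choose t : ℝ) * N * (1 / 64) ^ t) := by
      refine h.trans ?_
      calc (L.choose t : ℝ) * (N * σ ^ t) = (L.choose t : ℝ) * N * σ ^ t := by ring
        _ ≤ (L.choose t : ℝ) * N * (q ^ t * (1 / 64) ^ t) :=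
            mul_le_mul_of_nonneg_left hσt hchoose
        _ = _ := by ring
    exact le_of_mul_le_mul_left this hqt
  -- split the bad set by fragment size
  have split : ∀ W : Finset X, ((Ω.filter fun ω => L / 2 < (T W ω).card).card : ℝ)
      ≤ ∑ t ∈ Finset.Ioc (L / 2) L, ((Ω.filter fun ω => (T W ω).card = t).card : ℝ) := by
    intro W
    have hmaps : ∀ ω ∈ Ω.filter (fun ω => L / 2 < (T W ω).card),
        (T W ω).card ∈ Finset.Ioc (L / 2) L := by
      intro ω hω
      obtain ⟨h1, h2⟩ := mem_filter.1 hω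
      refine Finset.mem_Ioc.2 ⟨h2, (Finset.card_le_card (hT W ω h1).1).trans (hL ω h1)⟩
    have := Finset.card_eq_sum_card_fiberwise (f := fun ω => (T W ω).card)
      (s := Ω.filter (fun ω => L / 2 < (T W ω).card)) (t := Finset.Ioc (L / 2) L) hmaps
    rw [this]
    push_cast
    refine Finset.sum_le_sum fun t _ => ?_
    have hsub : ((Ω.filter (fun ω => L / 2 < (T W ω).card)).filter fun ω => (T W ω).card = t)
        ⊆ Ω.filter fun ω => (T W ω).card = t := by
      intro ω hω
      obtain ⟨h1, h2⟩ := mem_filter.1 hω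
      exact mem_filter.2 ⟨(mem_filter.1 h1).1, h2⟩
    exact_mod_cast Finset.card_le_card hsub
  have hq : 0 ≤ q := hq0.le
  calc ∑ W : Finset X, wtOn univ q W * ((Ω.filter fun ω => L / 2 < (T W ω).card).card : ℝ)
      ≤ ∑ W : Finset X, wtOn univ q W *
          ∑ t ∈ Finset.Ioc (L / 2) L, ((Ω.filter fun ω => (T W ω).card = t).card : ℝ) :=
        Finset.sum_le_sum fun W _ =>
          mul_le_mul_of_nonneg_left (split W) (wtOn_univ_nonneg hq hq1 W)
    _ = ∑ t ∈ Finset.Ioc (L / 2) L, ∑ W : Finset X,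
          wtOn univ q W * ((Ω.filter fun ω => (T W ω).card = t).card : ℝ) := by
        simp only [Finset.mul_sum]
        rw [Finset.sum_comm]
    _ ≤ ∑ t ∈ Finset.Ioc (L / 2) L, (L.choose t : ℝ) * N * (1 / 64) ^ t :=
        Finset.sum_le_sum fun t _ => level t
    _ ≤ ∑ t ∈ Finset.Ioc (L / 2) L, (L.choose t : ℝ) * N * (1 / 8) ^ (L + 1) := by
        refine Finset.sum_le_sum fun t ht => ?_
        have ht' := (Finset.mem_Ioc.1 ht).1
        have hchoose : (0 : ℝ) ≤ (L.choose t : ℝ) * N := by positivity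
        refine mul_le_mul_of_nonneg_left ?_ hchoose
        have e : (1 / 64 : ℝ) ^ t = (1 / 8) ^ (2 * t) := by
          rw [pow_mul]; norm_num
        rw [e]
        exact pow_le_pow_of_le_one (by norm_num) (by norm_num) (by omega)
    _ ≤ ∑ t ∈ Finset.range (L + 1), (L.choose t : ℝ) * N * (1 / 8) ^ (L + 1) := by
        refine Finset.sum_le_sum_of_subset_of_nonneg ?_ (fun t _ _ => by positivity)
        intro t ht
        exact Finset.mem_range.2 (Nat.lt_succ_of_le (Finset.mem_Ioc.1 ht).2)
    _ = N * ((1 / 8) * (1 / 4) ^ L) := by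
        rw [← Finset.sum_mul, ← Finset.sum_mul]
        have h2 : (∑ t ∈ Finset.range (L + 1), (L.choose t : ℝ)) = 2 ^ L := by
          exact_mod_cast Nat.sum_range_choose L
        rw [h2, pow_succ]
        have : (1 / 4 : ℝ) ^ L = 2 ^ L * (1 / 8) ^ L := by
          rw [← mul_pow]; norm_num
        rw [this]
        ring

/-- Number of rounds. -/
def rounds (L : ℕ) : ℕ := if L = 0 then 0 else Nat.log 2 L + 1

lemma rounds_step {L : ℕ} (hL : L ≠ 0) : rounds L = rounds (L / 2) + 1 := by
  unfold rounds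
  rw [if_neg hL]
  by_cases h1 : L / 2 = 0
  · have hL1 : L = 1 := by omega
    subst hL1
    simp
  · rw [if_neg h1]
    have h2 : 2 ≤ L := by omega
    rw [Nat.log_of_one_lt_of_le (by norm_num) h2]

/-- Density after the rounds. -/
noncomputable def dens (q : ℝ) (L : ℕ) : ℝ := 1 - (1 - q) ^ rounds L

lemma dens_nonneg {q : ℝ} (h0 : 0 ≤ q) (h1 : q ≤ 1) (L : ℕ) : 0 ≤ dens q L := by
  unfold dens
  have : (1 - q) ^ rounds L ≤ 1 := pow_le_one₀ (by linarith) (by linarith)
  linarith

lemma dens_le_one {q : ℝ} (_h0 : 0 ≤ q) (h1 : q ≤ 1) (L : ℕ) : dens q L ≤ 1 := by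
  unfold dens
  have : 0 ≤ (1 - q) ^ rounds L := pow_nonneg (by linarith) _
  linarith

lemma dens_step (q : ℝ) {L : ℕ} (hL : L ≠ 0) :
    dens q L = q + dens q (L / 2) - q * dens q (L / 2) := by
  unfold dens
  rw [rounds_step hL, pow_succ]
  ring

open Classical in
/-- Indicator of "the coin set `Z` contains a member of the family". -/
noncomputable def ind (Ω : Finset ι) (F : ι → Finset X) (Z : Finset X) : ℝ :=
  if ∃ ω ∈ Ω, F ω ⊆ Z then 1 else 0

lemma ind_nonneg (Ω : Finset ι) (F : ι → Finset X) (Z : Finset X) : 0 ≤ ind Ω F Z := by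
  unfold ind; split_ifs <;> norm_num

lemma ind_le_one (Ω : Finset ι) (F : ι → Finset X) (Z : Finset X) : ind Ω F Z ≤ 1 := by
  unfold ind; split_ifs <;> norm_num

lemma ind_mono (Ω : Finset ι) (F : ι → Finset X) {Z Z' : Finset X} (h : Z ⊆ Z') :
    ind Ω F Z ≤ ind Ω F Z' := by
  unfold ind
  by_cases hZ : ∃ ω ∈ Ω, F ω ⊆ Z
  · obtain ⟨ω, hω, hsub⟩ := hZ
    rw [if_pos ⟨ω, hω, hsub⟩, if_pos ⟨ω, hω, hsub.trans h⟩]
  · rw [if_neg hZ]
    split_ifs <;> norm_num

/-- The main induction. -/
theorem core (N σ q : ℝ) (hN : 0 < N) (hσ : 0 ≤ σ) (hq0 : 0 < q) (hq1 : q ≤ 1)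
    (h64 : 64 * σ ≤ q) (L : ℕ) :
    ∀ (Ω : Finset ι) (F : ι → Finset X), (∀ ω ∈ Ω, (F ω).card ≤ L) →
      (∀ I : Finset X, ((Ω.filter fun ω => I ⊆ F ω).card : ℝ) ≤ N * σ ^ I.card) →
      (Ω.card : ℝ) / N - (1 / 6) * (1 - (1 / 4) ^ L)
        ≤ ∑ Z : Finset X, wtOn univ (dens q L) Z * ind Ω F Z := by
  classical
  induction L using Nat.strong_induction_on with
  | _ L ih =>
    intro Ω F hL hs
    by_cases hL0 : L = 0
    · subst hL0
      simp only [pow_zero, sub_self, mul_zero, sub_zero]
      have h01 := dens_nonneg hq0.le hq1 0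
      have h02 := dens_le_one hq0.le hq1 0
      rcases Ω.eq_empty_or_nonempty with rfl | ⟨ω₀, hω₀⟩
      · simp only [card_empty, Nat.cast_zero, zero_div]
        exact Finset.sum_nonneg fun Z _ =>
          mul_nonneg (wtOn_univ_nonneg h01 h02 Z) (ind_nonneg _ _ _)
      · have hind : ∀ Z : Finset X, ind Ω F Z = 1 := by
          intro Z
          unfold ind
          rw [if_pos]
          refine ⟨ω₀, hω₀, ?_⟩
          have : (F ω₀).card = 0 := by
            have := hL ω₀ hω₀
            omega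
          rw [Finset.card_eq_zero.1 this]
          exact Finset.empty_subset _
        simp only [hind, mul_one]
        rw [sum_wtOn_univ]
        have := hs ∅
        simp only [Finset.empty_subset, Finset.filter_true_of_mem, implies_true, card_empty,
          pow_zero, mul_one] at this
        rw [div_le_one hN]
        exact this
    · obtain ⟨T, hT⟩ := exists_fragmentMap Ω F
      have hlt : L / 2 < L := Nat.div_lt_self (by omega) (by norm_num)
      set d' := dens q (L / 2) with hd'
      have hd'0 : 0 ≤ d' := dens_nonneg hq0.le hq1 _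
      have hd'1 : d' ≤ 1 := dens_le_one hq0.le hq1 _
      -- induction hypothesis for each `W`
      have step : ∀ W : Finset X,
          ((Ω.filter fun ω => (T W ω).card ≤ L / 2).card : ℝ) / N - (1 / 6) * (1 - (1 / 4) ^ (L / 2))
            ≤ ∑ V : Finset X, wtOn univ d' V * ind Ω F (W ∪ V) := by
        intro W
        have h1 := ih (L / 2) hlt (Ω.filter fun ω => (T W ω).card ≤ L / 2) (T W)
          (fun ω hω => (mem_filter.1 hω).2)
          (fun I => by
            refine le_trans ?_ (hs I)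
            have hsub : ((Ω.filter fun ω => (T W ω).card ≤ L / 2).filter fun ω => I ⊆ T W ω)
                ⊆ Ω.filter fun ω => I ⊆ F ω := by
              intro ω hω
              obtain ⟨h1, h2⟩ := mem_filter.1 hω
              have hΩ := (mem_filter.1 h1).1
              exact mem_filter.2 ⟨hΩ, h2.trans (hT W ω hΩ).1⟩
            exact_mod_cast Finset.card_le_card hsub)
        refine h1.trans ?_
        refine Finset.sum_le_sum fun V _ => ?_
        refine mul_le_mul_of_nonneg_left ?_ (wtOn_univ_nonneg hd'0 hd'1 V)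
        unfold ind
        by_cases h : ∃ ω ∈ Ω.filter (fun ω => (T W ω).card ≤ L / 2), T W ω ⊆ V
        · obtain ⟨ω, hω, hsub⟩ := h
          have hΩ := (mem_filter.1 hω).1
          obtain ⟨-, -, ⟨ω', hω', hω'sub, -⟩, -⟩ := hT W ω hΩ
          rw [if_pos ⟨ω, hω, hsub⟩, if_pos ⟨ω', hω', hω'sub.trans
            (Finset.union_subset_union_right hsub)⟩]
        · rw [if_neg h]
          split_ifs <;> norm_num
      -- average over `W`
      have hbad := bad_sum Ω F L hL N σ q hN.le hσ hq0 hq1 h64 hs T hT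
      have hcount : ∀ W : Finset X,
          ((Ω.filter fun ω => (T W ω).card ≤ L / 2).card : ℝ)
            = (Ω.card : ℝ) - ((Ω.filter fun ω => L / 2 < (T W ω).card).card : ℝ) := by
        intro W
        have := Finset.card_filter_add_card_filter_not (s := Ω) (fun ω => (T W ω).card ≤ L / 2)
        have e : (Ω.filter fun ω => ¬ (T W ω).card ≤ L / 2)
            = Ω.filter fun ω => L / 2 < (T W ω).card := by
          ext ω; simp
        rw [e] at this
        have h' : ((Ω.filter fun ω => (T W ω).card ≤ L / 2).card : ℝ)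
            + ((Ω.filter fun ω => L / 2 < (T W ω).card).card : ℝ) = (Ω.card : ℝ) := by
          exact_mod_cast this
        linarith
      have havg : (Ω.card : ℝ) / N - ((1 / 8) * (1 / 4) ^ L)
            - (1 / 6) * (1 - (1 / 4) ^ (L / 2))
          ≤ ∑ W : Finset X, ∑ V : Finset X, wtOn univ q W * wtOn univ d' V * ind Ω F (W ∪ V) := by
        have h1 : ∑ W : Finset X, wtOn univ q W *
              (((Ω.filter fun ω => (T W ω).card ≤ L / 2).card : ℝ) / N
                - (1 / 6) * (1 - (1 / 4) ^ (L / 2)))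
            ≤ ∑ W : Finset X, ∑ V : Finset X,
                wtOn univ q W * wtOn univ d' V * ind Ω F (W ∪ V) := by
          refine Finset.sum_le_sum fun W _ => ?_
          have := mul_le_mul_of_nonneg_left (step W) (wtOn_univ_nonneg hq0.le hq1 W)
          refine this.trans (le_of_eq ?_)
          rw [Finset.mul_sum]
          refine Finset.sum_congr rfl fun V _ => by ring
        refine le_trans ?_ h1
        have e : ∑ W : Finset X, wtOn univ q W *
              (((Ω.filter fun ω => (T W ω).card ≤ L / 2).card : ℝ) / N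
                - (1 / 6) * (1 - (1 / 4) ^ (L / 2)))
            = (Ω.card : ℝ) / N
              - (∑ W : Finset X, wtOn univ q W *
                  ((Ω.filter fun ω => L / 2 < (T W ω).card).card : ℝ)) / N
              - (1 / 6) * (1 - (1 / 4) ^ (L / 2)) := by
          have : ∀ W : Finset X, wtOn univ q W *
              (((Ω.filter fun ω => (T W ω).card ≤ L / 2).card : ℝ) / N
                - (1 / 6) * (1 - (1 / 4) ^ (L / 2)))
              = wtOn univ q W * ((Ω.card : ℝ) / N - (1 / 6) * (1 - (1 / 4) ^ (L / 2)))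
                - (wtOn univ q W * ((Ω.filter fun ω => L / 2 < (T W ω).card).card : ℝ)) / N := by
            intro W
            rw [hcount W]
            ring
          simp_rw [this]
          rw [Finset.sum_sub_distrib, ← Finset.sum_mul, sum_wtOn_univ, ← Finset.sum_div]
          ring
        rw [e]
        have hdiv : (∑ W : Finset X, wtOn univ q W *
              ((Ω.filter fun ω => L / 2 < (T W ω).card).card : ℝ)) / N
            ≤ (1 / 8) * (1 / 4) ^ L := by
          rw [div_le_iff₀ hN]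
          linarith
        linarith
      rw [sum_union_univ] at havg
      rw [dens_step q hL0]
      refine le_trans ?_ havg
      -- arithmetic of the error terms
      have hpow : (1 / 4 : ℝ) ^ (L / 2) ≥ 4 * (1 / 4) ^ L := by
        have h2 : L / 2 + 1 ≤ L := by omega
        have : (1 / 4 : ℝ) ^ L ≤ (1 / 4) ^ (L / 2 + 1) :=
          pow_le_pow_of_le_one (by norm_num) (by norm_num) h2
        rw [pow_succ] at this
        linarith
      have hpos : (0 : ℝ) < (1 / 4) ^ L := by positivity
      nlinarith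

/-- Monotonicity of the probability of an up-set in the density. -/
lemma sum_mono_density {s p : ℝ} (hs0 : 0 ≤ s) (hsp : s ≤ p) (hp1 : p ≤ 1)
    (g : Finset X → ℝ) (hg : ∀ Z Z' : Finset X, Z ⊆ Z' → g Z ≤ g Z') :
    ∑ Z : Finset X, wtOn univ s Z * g Z ≤ ∑ Z : Finset X, wtOn univ p Z * g Z := by
  by_cases hs1 : s = 1
  · have : p = 1 := by linarith
    rw [hs1, this]
  have hs2 : s < 1 := lt_of_le_of_ne (by linarith) hs1
  have hdiff : 0 < 1 - s := by linarith
  set r : ℝ := (p - s) / (1 - s) with hr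
  have hr0 : 0 ≤ r := div_nonneg (by linarith) hdiff.le
  have hr1 : r ≤ 1 := by
    rw [hr, div_le_one hdiff]; linarith
  have hsum : s + r - s * r = p := by
    have : r * (1 - s) = p - s := by
      rw [hr]; field_simp
    nlinarith
  have e := sum_union_univ (X := X) s r g
  rw [hsum] at e
  rw [← e]
  refine Finset.sum_le_sum fun W _ => ?_
  have h1 : wtOn univ s W * g W
      = ∑ V : Finset X, wtOn univ s W * wtOn univ r V * g W := by
    have := sum_wtOn_univ (X := X) r
    calc wtOn univ s W * g W = wtOn univ s W * (∑ V : Finset X, wtOn univ r V) * g W := by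
          rw [this]; ring
      _ = _ := by
          rw [Finset.mul_sum, Finset.sum_mul]
  rw [h1]
  refine Finset.sum_le_sum fun V _ => ?_
  have hW := wtOn_univ_nonneg (X := X) hs0 (by linarith) W
  have hV := wtOn_univ_nonneg (X := X) hr0 hr1 V
  exact mul_le_mul_of_nonneg_left (hg _ _ Finset.subset_union_left) (mul_nonneg hW hV)

lemma dens_le {q : ℝ} (h0 : 0 ≤ q) (h1 : q ≤ 1) (L : ℕ) :
    dens q L ≤ (1 + Real.logb 2 (L : ℝ)) * q := by
  unfold dens
  have hb : (1 : ℝ) + (rounds L : ℝ) * (-q) ≤ (1 + -q) ^ rounds L :=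
    one_add_mul_le_pow (by linarith) _
  have hb' : (1 + -q) = 1 - q := by ring
  rw [hb'] at hb
  have hr : (rounds L : ℝ) ≤ 1 + Real.logb 2 (L : ℝ) := by
    unfold rounds
    split_ifs with hL
    · subst hL
      simp
    · push_cast
      have := Real.natLog_le_logb L 2
      push_cast at this
      linarith
  have : (rounds L : ℝ) * q ≤ (1 + Real.logb 2 (L : ℝ)) * q :=
    mul_le_mul_of_nonneg_right hr h0
  nlinarith

/-- `Finset X` as outcomes of coins. -/
noncomputable def omegaEquiv : Finset X ≃ (X → Bool) where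
  toFun Z := fun x => decide (x ∈ Z)
  invFun w := univ.filter fun x => w x = true
  left_inv Z := by ext x; simp
  right_inv w := by funext x; simp

lemma bernoulliWeight_omegaEquiv (p : ℝ) (Z : Finset X) :
    Crest.FinProb.bernoulliWeight p (omegaEquiv Z) = wtOn univ p Z := by
  unfold Crest.FinProb.bernoulliWeight wtOn omegaEquiv
  refine Finset.prod_congr rfl fun x _ => ?_
  by_cases h : x ∈ Z <;> simp [h]

open Classical in
/-- The probability of an event of coins as a sum over `Finset X`. -/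
lemma bernoulliProb_eq_sum (p : ℝ) (E : Set (X → Bool)) (g : Finset X → ℝ)
    (hg : ∀ Z, g Z = if omegaEquiv Z ∈ E then (1 : ℝ) else 0)  :
    Crest.FinProb.bernoulliProb p E = ∑ Z : Finset X, wtOn univ p Z * g Z := by
  classical
  unfold Crest.FinProb.bernoulliProb
  rw [Finset.sum_filter]
  rw [← Equiv.sum_comp (omegaEquiv (X := X))]
  refine Finset.sum_congr rfl fun Z _ => ?_
  rw [hg, bernoulliWeight_omegaEquiv]
  by_cases h : omegaEquiv Z ∈ E
  · simp [h]
  · simp [h]

/-- **The spread lemma.**  If `F` is a (multi-)family of at most `L`-element subsets of the finite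
set `X` which is `σ`-spread in the sense that for all `I` at most a fraction `σ ^ |I|` of the
indices `a` have `I ⊆ F a`, then coins of density `min 1 (64 σ (1 + log₂ L))` contain a member of
the family with probability at least `1/2`. -/
theorem spread_main {X ι : Type*} [Fintype X] [DecidableEq X] [Fintype ι] [Nonempty ι]
    (F : ι → Finset X) (L : ℕ) (hL : ∀ a, (F a).card ≤ L) (σ : ℝ) (hσ : 0 < σ)
    (hs : ∀ I : Finset X, ((univ.filter fun a => I ⊆ F a).card : ℝ)
      ≤ (Fintype.card ι : ℝ) * σ ^ I.card) :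
    (1 / 2 : ℝ) ≤ Crest.FinProb.bernoulliProb (min 1 (64 * σ * (1 + Real.logb 2 (L : ℝ))))
      {w : X → Bool | ∃ a, ∀ x ∈ F a, w x = true} := by
  classical
  have hprob : ∀ p : ℝ, Crest.FinProb.bernoulliProb p {w : X → Bool | ∃ a, ∀ x ∈ F a, w x = true}
      = ∑ Z : Finset X, wtOn univ p Z * ind (univ : Finset ι) F Z := by
    intro p
    refine bernoulliProb_eq_sum p _ _ fun Z => ?_
    unfold ind
    have : (∃ ω ∈ (univ : Finset ι), F ω ⊆ Z)
        ↔ omegaEquiv Z ∈ {w : X → Bool | ∃ a, ∀ x ∈ F a, w x = true} := by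
      simp only [mem_univ, true_and, Set.mem_ofPred_eq, omegaEquiv, Equiv.coe_fn_mk,
        decide_eq_true_eq]
      rfl
    by_cases h : ∃ ω ∈ (univ : Finset ι), F ω ⊆ Z
    · rw [if_pos h, if_pos (this.1 h)]
    · rw [if_neg h, if_neg (fun h' => h (this.2 h'))]
  rw [hprob]
  have hlog : 0 ≤ Real.logb 2 (L : ℝ) := by
    have := Real.natLog_le_logb L 2
    push_cast at this
    have h0 : (0 : ℝ) ≤ (Nat.log 2 L : ℝ) := Nat.cast_nonneg _
    linarith
  have hcardι : (0 : ℝ) < (Fintype.card ι : ℝ) := by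
    exact_mod_cast Fintype.card_pos
  by_cases hbig : 1 ≤ 64 * σ * (1 + Real.logb 2 (L : ℝ))
  · -- density one: the whole set contains a member
    rw [min_eq_left hbig]
    have hind : ind (univ : Finset ι) F (univ : Finset X) = 1 := by
      unfold ind
      rw [if_pos]
      exact ⟨Classical.arbitrary ι, mem_univ _, subset_univ _⟩
    have hw : wtOn (univ : Finset X) (1 : ℝ) (univ : Finset X) = 1 := by
      unfold wtOn
      simp
    have := Finset.single_le_sum (f := fun Z : Finset X => wtOn univ (1 : ℝ) Z *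
        ind (univ : Finset ι) F Z)
      (fun Z _ => mul_nonneg (wtOn_univ_nonneg (by norm_num) le_rfl Z) (ind_nonneg _ _ _))
      (mem_univ (univ : Finset X))
    simp only [hw, hind, mul_one] at this
    linarith
  · push Not at hbig
    have hadd : 1 ≤ 1 + Real.logb 2 (L : ℝ) := by linarith
    set q : ℝ := 64 * σ with hq
    have hq0 : 0 < q := by rw [hq]; positivity
    have hq1 : q ≤ 1 := by nlinarith
    rw [min_eq_right hbig.le]
    have hc := core (ι := ι) (X := X) (Fintype.card ι : ℝ) σ q hcardι hσ.le hq0 hq1 le_rfl L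
      (univ : Finset ι) F (fun a _ => hL a) (by simpa using hs)
    have hcard1 : ((univ : Finset ι).card : ℝ) / (Fintype.card ι : ℝ) = 1 := by
      rw [Finset.card_univ]
      exact div_self hcardι.ne'
    rw [hcard1] at hc
    have hdens := dens_le hq0.le hq1 L
    have hd0 := dens_nonneg hq0.le hq1 L
    have hmono := sum_mono_density (X := X) hd0 (by
        calc dens q L ≤ (1 + Real.logb 2 (L : ℝ)) * q := hdens
          _ = 64 * σ * (1 + Real.logb 2 (L : ℝ)) := by rw [hq]; ring) hbig.le
      (ind (univ : Finset ι) F) (fun Z Z' h => ind_mono _ _ h)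
    have hp : (1 / 4 : ℝ) ^ L ≥ 0 := by positivity
    have hp' : (1 / 6 : ℝ) * (1 - (1 / 4) ^ L) ≤ 1 / 6 := by nlinarith
    linarith

end Main

end Crest.Agent.SpreadLemma
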